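import Vale.Agent.P286E50F.Tx

/-!
# The equation and the functions of the curve on monomials
-/

namespace Vale.Agent.P286E50F

open Finsupp MvPolynomial Vale.Agent.P286EI Vale.Agent.P286EX Vale.Agent.P286E
open CategoryTheory

noncomputable section

variable {I : Type} [SmallCategory I] {D : CD I} {G : Grp} {s : ℂ} (xd : XD D) (X : QO D)

/-- The structure map of a test object. -/
def vX (G : Grp) (s : ℂ) (X : QO D) : OV D X.i →ₐ[ℂ] RQ G s X := vlift (qx G s X) (qY G s X)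

theorem vX_C (z : D.C X.i) : vX G s X (C z) = qx G s X z := vlift_C _ _ z

theorem vX_X (a : Fin 3) : vX G s X (MvPolynomial.X a) = qY G s X a := vlift_X _ _ a

theorem vX_FF : vX G s X (FF D X.i) = 0 := (vlift_FF _ _).trans (sub_eq_zero.2 X.sq)

theorem vX_dFF (l : Fin 4) :
    vX G s X (wd (Fin 3) (xd.pd X.i) (finSuccEquiv 3 l) (FF D X.i)) = Fj xd G s X l := by
  induction l using Fin.cases with
  | zero =>
    rw [finSuccEquiv_zero, FF, map_sub, map_sum, wd_n_C, map_sub, vX_C]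
    simp only [sq, Derivation.leibniz, wd_n_X, smul_zero, add_zero, Finset.sum_const_zero, map_zero,
      zero_sub]
    rfl
  | succ a =>
    rw [finSuccEquiv_succ, FF, map_sub, map_sum, wd_s_C, sub_zero]
    simp only [sq, Derivation.leibniz, wd_s_X, smul_eq_mul, mul_ite, mul_one, mul_zero,
      Finset.sum_add_distrib, Finset.sum_ite_eq, Finset.mem_univ, if_true]
    rw [map_add, vX_X, ← two_mul]
    rfl

variable {T P : Type} [AddCommGroup T] [Module (RQ G s X) T] [AddCommGroup P] [Module (RQ G s X) P]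

variable (G s) in
/-- A right action of the Weyl algebra, generated by a vacuum vector. -/
structure RV (T : Type) [AddCommGroup T] [Module (RQ G s X) T] where
  ρ : DW (Fin 3) (xd.pd X.i) → T →ₗ[RQ G s X] T
  add : ∀ a b, ρ (a + b) = ρ a + ρ b
  mul : ∀ a b p, ρ (a * b) p = ρ b (ρ a p)
  bs : (Fin 4 →₀ ℕ) → T
  h0 : ∀ g, ρ (DO.of _ g) (bs 0) = vX G s X g • bs 0
  h1 : ∀ m l, bs (m + single l 1) = ρ (DO.D _ (finSuccEquiv 3 l)) (bs m)

/-- The transfer module. -/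
def RV.tr (bs : (Fin 4 →₀ ℕ) → MvPolynomial (Option (Fin 3)) (RQ G s X)) (h0 : bs 0 = 1)
    (h1 : ∀ m l, bs (m + single l 1) = bs m * MvPolynomial.X (finSuccEquiv 3 l)) :
    RV G s xd X (MvPolynomial (Option (Fin 3)) (RQ G s X)) where
  ρ := Tr.ra (wd_cm _) (vX G s X)
  add := map_add _
  mul := Tr.ra_mul _ _
  bs := bs
  h0 := (ofTr (wd_cm (xd.pd X.i)) (vX G s X) (finSuccEquiv 3) bs h0 h1).rf_zero
  h1 := (ofTr (wd_cm (xd.pd X.i)) (vX G s X) (finSuccEquiv 3) bs h0 h1).bs_succ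

namespace RV

variable {xd X} (V : RV G s xd X T)

/-- The data for the order lemmas. -/
def od : OD (RQ G s X) T (OV D X.i) (Fin 4) :=
  ofRa V.ρ V.add V.mul (vX G s X) (finSuccEquiv 3) V.bs V.h0 V.h1

/-- The field `F_e`, for `e m = J (bs m)`. -/
theorem F_e (J : T →ₗ[RQ G s X] P) (r : P →ₗ[RQ G s X] P)
    (hr : ∀ p, r (J p) = J (V.ρ (DO.of _ (FF D X.i)) p)) (e : (Fin 4 →₀ ℕ) → P)
    (he : ∀ m, e m = J (V.bs m)) (m : Fin 4 →₀ ℕ) :
    r (e m) - ∑ l, ((m l : RQ G s X) * Fj xd G s X l) • e (m - single l 1) ∈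
      Submodule.span (RQ G s X) {p | ∃ m' : Fin 4 →₀ ℕ, ∑ l, m' l + 2 ≤ ∑ l, m l ∧ p = e m'} :=
  V.od.lift_lead J r hr e he (vX_FF X) _ (vX_dFF xd X) m

/-- The field `cf_ord`, for `e m k = J (bs m)`. -/
theorem cf_ord {β : Type} (z : D.C X.i) (J : T →ₗ[RQ G s X] P) (r : P →ₗ[RQ G s X] P)
    (hr : ∀ p, r (J p) = J (V.ρ (DW.cf _ _ z) p)) (e : (Fin 4 →₀ ℕ) → β → P) (k : β)
    (he : ∀ m, e m k = J (V.bs m)) (m : Fin 4 →₀ ℕ) : r (e m k) ∈ Submodule.span (RQ G s X)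
      {p | ∃ (m' : Fin 4 →₀ ℕ) (k' : β), ∑ l, m' l ≤ ∑ l, m l ∧ p = e m' k'} :=
  V.od.lift_ord J r (g := C z) hr e k he m

/-- The field `ra_cf`. -/
theorem ra_cf (z : D.C X.i) (J : T →ₗ[RQ G s X] P) (r : P →ₗ[RQ G s X] P)
    (hr : ∀ p, r (J p) = J (V.ρ (DW.cf _ _ z) p)) {e : P} (he : e = J (V.bs 0)) :
    r e = qx G s X z • e := by
  rw [he, hr, ← map_smul, ← vX_C]
  exact congrArg J (V.h0 (C z))

theorem rho_F (m : Fin 4 →₀ ℕ) : V.ρ (DO.of _ (FF D X.i)) (V.bs m) -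
    ∑ l, ((m l : RQ G s X) * Fj xd G s X l) • V.bs (m - single l 1) ∈
      Submodule.span (RQ G s X) {p | ∃ m' : Fin 4 →₀ ℕ, ∑ l, m' l + 2 ≤ ∑ l, m l ∧ p = V.bs m'} :=
  V.F_e LinearMap.id _ (fun _ => rfl) _ (fun _ => rfl) m

theorem rho_of (g : OV D X.i) (m : Fin 4 →₀ ℕ) : V.ρ (DO.of _ g) (V.bs m) ∈
    Submodule.span (RQ G s X) {p | ∃ m' : Fin 4 →₀ ℕ, ∑ l, m' l ≤ ∑ l, m l ∧ p = V.bs m'} :=
  V.od.ord g m

theorem rho_cf0 (z : D.C X.i) : V.ρ (DW.cf _ _ z) (V.bs 0) = qx G s X z • V.bs 0 :=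
  V.ra_cf z LinearMap.id _ (fun _ => rfl) rfl

/-- Operators of order one: the shape of the field `l_ord`. -/
theorem rho_yd (g : OV D X.i) (l : Fin 4) (m : Fin 4 →₀ ℕ) :
    V.ρ (DO.of _ g * DO.D _ (finSuccEquiv 3 l)) (V.bs m) ∈ Submodule.span (RQ G s X)
      {p | ∃ m' : Fin 4 →₀ ℕ, ∑ l, m' l ≤ ∑ l, m l + 1 ∧ p = V.bs m'} := by
  rw [V.mul]
  exact V.od.rD_mem (r := 0) (n := ∑ l, m l) l (V.od.ord g m)

end RV

end

end Vale.Agent.P286E50F
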