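import Vale.Agent.P286EL.Pd0

/-!
# Right multiplication with functions on monomials in vector fields
-/

namespace Vale.Agent.P286E50F

open Finsupp

noncomputable section

section Gen

variable {A T O ι : Type} [CommRing A] [AddCommGroup T] [Module A T] [Fintype ι] [DecidableEq ι]

/-- Monomials `bs m` in operators `rD l`, and operators `rf g` with the Leibniz rule. -/
structure OD (A T O ι : Type) [CommRing A] [AddCommGroup T] [Module A T] where
  bs : (ι →₀ ℕ) → T
  rD : ι → T →ₗ[A] T
  rf : O → T →ₗ[A] T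
  δ : ι → O → O
  ev : O → A
  bs_succ : ∀ m l, bs (m + single l 1) = rD l (bs m)
  rf_zero : ∀ g, rf g (bs 0) = ev g • bs 0
  rf_rD : ∀ g l p, rf g (rD l p) = rD l (rf g p) + rf (δ l g) p

theorem sum_succ (m : ι →₀ ℕ) (l : ι) : ∑ j, (m + single l 1 : ι →₀ ℕ) j = ∑ j, m j + 1 := by
  simp [Finset.sum_add_distrib, single_apply]

omit [Fintype ι] [DecidableEq ι] in
theorem sub_add_one {m : ι →₀ ℕ} {j : ι} (h : m j ≠ 0) : m - single j 1 + single j 1 = m :=
  tsub_add_cancel_of_le (single_le_iff.2 (Nat.one_le_iff_ne_zero.2 h))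

omit [Fintype ι] [DecidableEq ι] in
theorem mon_ind {P : (ι →₀ ℕ) → Prop} (h0 : P 0) (h1 : ∀ m l, P m → P (m + single l 1))
    (m : ι →₀ ℕ) : P m := by
  induction m using Finsupp.induction with
  | zero => exact h0
  | single_add l n m _ _ ih =>
    clear * - ih h1
    induction n with
    | zero => simpa using ih
    | succ n hn =>
      rw [single_add, add_right_comm]
      exact h1 _ _ hn

namespace OD

variable (E : OD A T O ι)

/-- The span of the monomials of order at most `n - r`. -/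
def Fl (r n : ℕ) : Submodule A T :=
  Submodule.span A {p | ∃ m' : ι →₀ ℕ, ∑ l, m' l + r ≤ n ∧ p = E.bs m'}

omit [DecidableEq ι] in
theorem bs_mem {r n : ℕ} {m : ι →₀ ℕ} (h : ∑ l, m l + r ≤ n) : E.bs m ∈ E.Fl r n :=
  Submodule.subset_span ⟨m, h, rfl⟩

omit [DecidableEq ι] in
theorem Fl_mono {r n r' n' : ℕ} (h : r' + n ≤ r + n') {p : T} (hp : p ∈ E.Fl r n) :
    p ∈ E.Fl r' n' :=
  Submodule.span_mono (by
    rintro _ ⟨m, hm, e⟩
    exact ⟨m, by omega, e⟩) hp

theorem rD_mem {r n : ℕ} (l : ι) {p : T} (hp : p ∈ E.Fl r n) : E.rD l p ∈ E.Fl r (n + 1) :=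
  (Submodule.span_le (p := (E.Fl r (n + 1)).comap (E.rD l))).2 (by
    rintro _ ⟨m, hm, rfl⟩
    change E.rD l (E.bs m) ∈ E.Fl r (n + 1)
    rw [← E.bs_succ]
    exact E.bs_mem (by rw [sum_succ]; omega)) hp

theorem top (m : ι →₀ ℕ) : ∀ g, E.rf g (E.bs m) - E.ev g • E.bs m ∈ E.Fl 1 (∑ l, m l) := by
  induction m using mon_ind with
  | h0 => intro g; rw [E.rf_zero, sub_self]; exact zero_mem _
  | h1 m l ih =>
    intro g
    have h1 := E.rD_mem l (ih g)
    have h2 := add_mem (E.Fl_mono (r' := 1) (n' := ∑ l, m l + 1) (by omega) (ih (E.δ l g)))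
      (Submodule.smul_mem _ (E.ev (E.δ l g)) (E.bs_mem (r := 1) (m := m) le_rfl))
    rw [sum_succ, E.bs_succ, E.rf_rD, ← map_smul, add_sub_right_comm, ← map_sub]
    rw [sub_add_cancel] at h2
    exact add_mem h1 h2

/-- The order does not increase. -/
theorem ord (g : O) (m : ι →₀ ℕ) : E.rf g (E.bs m) ∈ E.Fl 0 (∑ l, m l) := by
  have h := add_mem (E.Fl_mono (r' := 0) (n' := ∑ l, m l) (by omega) (E.top m g))
    (Submodule.smul_mem _ (E.ev g) (E.bs_mem (r := 0) (m := m) le_rfl))
  rwa [sub_add_cancel] at h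

/-- The two leading terms. -/
theorem lead (m : ι →₀ ℕ) (g : O) : E.rf g (E.bs m) - E.ev g • E.bs m -
    ∑ j, ((m j : A) * E.ev (E.δ j g)) • E.bs (m - single j 1) ∈ E.Fl 2 (∑ l, m l) := by
  induction m using mon_ind with
  | h0 => rw [E.rf_zero, sub_self]; simp
  | h1 m l ih =>
    have h1 := E.rD_mem l ih
    have h2 := E.Fl_mono (r' := 2) (n' := ∑ l, m l + 1) (by omega) (E.top m (E.δ l g))
    have e : ∑ j, (((m + single l 1 : ι →₀ ℕ) j : A) * E.ev (E.δ j g)) •
        E.bs (m + single l 1 - single j 1) =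
        E.rD l (∑ j, ((m j : A) * E.ev (E.δ j g)) • E.bs (m - single j 1)) +
          E.ev (E.δ l g) • E.bs m := by
      have e1 : ∀ j, (((m + single l 1 : ι →₀ ℕ) j : A) * E.ev (E.δ j g)) •
          E.bs (m + single l 1 - single j 1) =
          E.rD l (((m j : A) * E.ev (E.δ j g)) • E.bs (m - single j 1)) +
            if l = j then E.ev (E.δ l g) • E.bs m else 0 := fun j => by
        rw [map_smul, ← E.bs_succ, Finsupp.add_apply, Nat.cast_add, add_mul, add_smul, single_apply]
        refine congrArg₂ (· + ·) ?_ ?_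
        · by_cases h : m j = 0
          · rw [h, Nat.cast_zero, zero_mul, zero_smul, zero_smul]
          · rw [tsub_add_eq_add_tsub (single_le_iff.2 (Nat.one_le_iff_ne_zero.2 h))]
        · split_ifs with h
          · subst h
            rw [Nat.cast_one, one_mul, add_tsub_cancel_right]
          · rw [Nat.cast_zero, zero_mul, zero_smul]
      rw [Finset.sum_congr rfl fun j _ => e1 j, Finset.sum_add_distrib, ← map_sum,
        Finset.sum_ite_eq, if_pos (Finset.mem_univ _)]
    rw [sum_succ, e, E.bs_succ, E.rf_rD]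
    have h3 := add_mem h1 h2
    rw [map_sub, map_sub, map_smul] at h3
    refine (congrArg (· ∈ _) ?_).mp h3
    abel

/-- The leading term for a function which vanishes. -/
theorem lead0 (m : ι →₀ ℕ) {g : O} (h : E.ev g = 0) : E.rf g (E.bs m) -
    ∑ j, ((m j : A) * E.ev (E.δ j g)) • E.bs (m - single j 1) ∈ E.Fl 2 (∑ l, m l) := by
  have h1 := E.lead m g
  rwa [h, zero_smul, sub_zero] at h1

end OD

/-- An operator which commutes with the wedge operators and keeps the vacuum part commutes with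
the contractions. -/
theorem j_comm {β : Type} (e : Module.Basis (Finset (Fin 3) × β) A T) (i j : Fin 3 → T →ₗ[A] T)
    (i_ins : ∀ a S b, a ∉ S → i a (e (S, b)) =
      (-1 : A) ^ (S.filter (· < a)).card • e (insert a S, b))
    (j_i : ∀ a b p, j a (i b p) = (if a = b then p else 0) - i b (j a p))
    (j_e : ∀ a b, j a (e (∅, b)) = 0) (ρ : T →ₗ[A] T) (ρ_i : ∀ b p, ρ (i b p) = i b (ρ p))
    (ρ_e : ∀ b, ρ (e (∅, b)) ∈ Submodule.span A {p | ∃ b', p = e (∅, b')}) (a : Fin 3) (p : T) :
    j a (ρ p) = ρ (j a p) := by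
  have key : ∀ (S : Finset (Fin 3)) b, j a (ρ (e (S, b))) = ρ (j a (e (S, b))) := fun S b => by
    induction S using Finset.induction_on with
    | empty =>
      rw [j_e, map_zero]
      refine (Submodule.span_le (p := LinearMap.ker (j a))).2 ?_ (ρ_e b)
      rintro _ ⟨b', rfl⟩
      exact j_e a b'
    | insert c S hc ih =>
      have e1 : e (insert c S, b) = (-1 : A) ^ (S.filter (· < c)).card • i c (e (S, b)) := by
        rw [i_ins c S b hc, smul_smul, ← mul_pow, neg_one_mul, neg_neg, one_pow, one_smul]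
      rw [e1, map_smul, map_smul, map_smul, map_smul, ρ_i, j_i, j_i, ih, map_sub, ρ_i,
        apply_ite ρ, map_zero]
  exact LinearMap.congr_fun (e.ext (f₁ := (j a).comp ρ) (f₂ := ρ.comp (j a))
    fun γ => key γ.1 γ.2) p

end Gen

end

end Vale.Agent.P286E50F
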