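import Vale.Agent.P286E50F.Fe
import Vale.Agent.P286ER2.Tr

/-!
# The transfer module as a right module with a vacuum vector
-/

namespace Vale.Agent.P286E50F

open Finsupp MvPolynomial Vale.Agent.P286EI Vale.Agent.P286EX Vale.Agent.P286E
open CategoryTheory

noncomputable section

variable {I : Type} [SmallCategory I] {D : CD I} (xd : XD D) (G : Grp) (s : ℂ) (X : QO D)

theorem ex_add (m : Fin 4 →₀ ℕ) (l : Fin 4) :
    Tr.ex (m + single l 1) = Tr.ex m + single (finSuccEquiv 3 l) 1 := by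
  simp only [Tr.ex, equivMapDomain_eq_mapDomain, mapDomain_add, mapDomain_single]

theorem bs_zero : Tr.bs G s X 0 = 1 := by
  rw [Tr.bs_apply, Tr.ex, equivMapDomain_zero]
  rfl

theorem bs_succ (m : Fin 4 →₀ ℕ) (l : Fin 4) :
    Tr.bs G s X (m + single l 1) = Tr.bs G s X m * MvPolynomial.X (finSuccEquiv 3 l) := by
  rw [Tr.bs_apply, Tr.bs_apply, ex_add, MvPolynomial.X, monomial_mul, mul_one]

/-- The transfer module. -/
def rv : RV G s xd X (Tr.TX G s X) := RV.tr xd X (Tr.bs G s X) (bs_zero G s X) (bs_succ G s X)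

theorem rv_ρ (q : Tr.DV xd X.i) : (rv xd G s X).ρ q = Tr.ra0 xd G s X q := rfl

theorem ra0_F (m : Fin 4 →₀ ℕ) : Tr.ra0 xd G s X (DO.of _ (FF D X.i)) (Tr.bs G s X m) -
    ∑ l, ((m l : RQ G s X) * Fj xd G s X l) • Tr.bs G s X (m - single l 1) ∈
      Submodule.span (RQ G s X)
        {p | ∃ m' : Fin 4 →₀ ℕ, ∑ l, m' l + 2 ≤ ∑ l, m l ∧ p = Tr.bs G s X m'} :=
  (rv xd G s X).rho_F m

theorem rv_bs (m : Fin 4 →₀ ℕ) : (rv xd G s X).bs m = Tr.bs G s X m := rfl

end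

end Vale.Agent.P286E50F
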