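import Vale.Agent.P286ER2.Tr
import Vale.Agent.P286E5.SL

/-!
The transition maps of the transfer module and the connection: reduction to the unit.
-/

set_option autoImplicit false
set_option linter.all false

namespace Vale.Agent.P286EX.Tr

open CategoryTheory MvPolynomial Matrix TensorProduct Vale.Agent.P286 Vale.Agent.P286.St
  Vale.Agent.P286E Vale.Agent.P286EI Vale.Agent.P286EU

noncomputable section

section Mu

variable {B : Type} [CommRing B] [Algebra ℂ B] (κ : ℂ) (pd : Derivation ℂ B B) (e : Fin 3)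

theorem ta_cm {z : DW (Fin 3) pd} (h : ∀ a b, DW.y pd a * DW.d pd b * z = z * (DW.y pd a * DW.d pd b)) :
    mu κ pd e * z = z * mu κ pd e := by
  simp only [mu, Finset.sum_mul, Finset.mul_sum, smul_mul_assoc, mul_smul_comm, h]

theorem ta_cf (z : B) : mu κ pd e * DW.cf _ pd z = DW.cf _ pd z * mu κ pd e :=
  ta_cm κ pd e fun a b => by rw [mul_assoc, DW.d_cf, ← mul_assoc, DW.y_cf, mul_assoc]

theorem ta_tu (m l : B) : mu κ pd e * DW.tu _ pd m l = DW.tu _ pd m l * mu κ pd e := by
  have h1 : mu κ pd e * DW.du _ pd = DW.du _ pd * mu κ pd e := ta_cm κ pd e fun a b => by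
    rw [mul_assoc, ← DW.du_d, ← mul_assoc, ← DW.du_y, mul_assoc]
  have h2 : mu κ pd e * DW.Eu _ pd = DW.Eu _ pd * mu κ pd e := ta_cm κ pd e fun a b => by
    rw [← mul_assoc, DW.Eu_y, add_mul, mul_assoc _ (DW.Eu _ pd), DW.Eu_d, mul_sub, sub_add_cancel,
      mul_assoc]
  rw [DW.tu, mul_add, add_mul, mul_sub, sub_mul, h1, ta_cf, ← mul_assoc, ta_cf, mul_assoc, h2,
    mul_assoc]

theorem ta_d (a : Fin 3) :
    mu κ pd e * DW.d pd a = DW.d pd a * mu κ pd e + ∑ c, (κ * eps e a c) • DW.d pd c := by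
  have h : ∀ p q, DW.d pd a * (DW.y pd p * DW.d pd q) =
      DW.y pd p * DW.d pd q * DW.d pd a + if a = p then DW.d pd q else 0 := fun p q => by
    rw [← mul_assoc, DW.d_y, add_mul, mul_assoc, mul_assoc, DW.d_d a, ite_mul, one_mul, zero_mul]
  have h2 : ∀ q, eps e a q = -eps e q a := fun q => by
    fin_cases e <;> fin_cases a <;> fin_cases q <;> simp [eps]
  simp only [mu, Finset.sum_mul, Finset.mul_sum, smul_mul_assoc, mul_smul_comm, h, smul_add,
    Finset.sum_add_distrib, smul_ite, smul_zero, Finset.sum_ite_eq, Finset.mem_univ, if_true, h2,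
    mul_neg, neg_smul, Finset.sum_neg_distrib, add_neg_cancel_right]

end Mu

variable {I : Type} [SmallCategory I] {D : CD I} {G : Grp} {s : ℂ} (xd : XD D) (K : GK G)
  {X Y : QO D}

/-- The inverse of the unit `c`. -/
def taC (u : Ar G s X Y) : D.C Y.i := ((cu (QM.α u))⁻¹ : (D.C Y.i)ˣ)

/-- The corrected action of a vector field. -/
def taN (u : Ar G s X Y) (w : Derivation ℂ (RQ G s Y) (RQ G s Y)) (p : TX G s Y) : TX G s Y :=
  act xd G s Y w p - ∑ a, w.liftKaehlerDifferential (thm G (qh u) a) • ll xd K s Y a p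

theorem taN_ra0 (u : Ar G s X Y) (w) {q : DV xd Y.i}
    (h : ∀ e, mu K.κ (xd.pd Y.i) e * q = q * mu K.κ (xd.pd Y.i) e) (p : TX G s Y) :
    taN xd K u w (ra0 xd G s Y q p) = ra0 xd G s Y q (taN xd K u w p) := by
  simp only [taN, act_ra0, map_sub, map_sum, map_smul, ll_apply, map_neg, ← ra0_mul, h]

theorem gu_du (u : Ar G s X Y) : gu xd K u (DW.du _ _) = inc xd G s Y
    (DW.cf _ _ (taC u) *
      DW.tu _ _ (xd.vfd.lc (QM.α u)) (s • xd.vfd.lr (QM.α u))) := by
  rw [gu, AlgHom.comp_apply, inc_du, DW.map_du, tr_ci, tr_lg, tr_l]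
  simp only [DW.tu, map_mul, map_add, map_sub, inc_cf, inc_du, inc_Eu, taC]

theorem raX_gu_d (u : Ar G s X Y) (b : Fin 3) (p : TX G s Y) :
    raX xd G s Y (gu xd K u (DW.d _ b)) p = ∑ a, adm G (qh u) a b •
      ra0 xd G s Y (DW.cf _ _ (taC u) * DW.d _ a) p := by
  rw [gu, AlgHom.comp_apply, inc_d, DW.map_d, tr_ci, raX_mul, DW.lc, map_sum, LinearMap.sum_apply]
  refine Finset.sum_congr rfl fun a _ => ?_
  rw [raX_mul, tr_g, raX_L, map_smul, ← raX_inc, map_mul, inc_cf, inc_d, raX_mul]
  rfl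

theorem taN_gu (u : Ar G s X Y) (w) (k : Option (Fin 3)) (p : TX G s Y) :
    taN xd K u w (raX xd G s Y (gu xd K u (DO.D _ k)) p) =
      raX xd G s Y (gu xd K u (DO.D _ k)) (taN xd K u w p) := by
  rcases k with _ | b
  · change taN xd K u w (raX xd G s Y (gu xd K u (DW.du _ _)) p) =
      raX xd G s Y (gu xd K u (DW.du _ _)) _
    rw [gu_du, raX_inc, raX_inc]
    exact taN_ra0 xd K u w (fun e => by rw [← mul_assoc, ta_cf, mul_assoc, ta_tu, mul_assoc]) p
  · change taN xd K u w (raX xd G s Y (gu xd K u (DW.d _ b)) p) =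
      raX xd G s Y (gu xd K u (DW.d _ b)) _
    rw [raX_gu_d, raX_gu_d]
    obtain ⟨E, hE⟩ : ∃ E : Fin 3 → TX G s Y →ₗ[RQ G s Y] TX G s Y, E = fun a =>
      ra0 xd G s Y (DW.cf _ _ (taC u) * DW.d _ a) := ⟨_, rfl⟩
    have h1 : ∀ a x, act xd G s Y w (E a x) = E a (act xd G s Y w x) := fun a x => by
      rw [hE]; exact act_ra0 xd Y w _ x
    have h2 : ∀ e a x, ll xd K s Y e (E a x) =
        E a (ll xd K s Y e x) + ∑ c, (K.κ * eps e a c) • E c x := fun e a x => by
      rw [hE]
      simp only [ll_apply, map_neg, ← ra0_mul]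
      rw [← mul_assoc (mu ..), ta_cf, mul_assoc _ (mu ..), ta_d, mul_add, map_add,
        LinearMap.add_apply, neg_add_rev, Finset.mul_sum, map_sum, LinearMap.sum_apply, ← mul_assoc]
      simp only [mul_smul_comm, map_smul, LinearMap.smul_apply]
      abel
    have h3 : ∀ a x, ra0 xd G s Y (DW.cf _ _ (taC u) * DW.d _ a) x = E a x :=
      fun a x => by rw [hE]
    have h4 : ∑ f, w (adm G (qh u) f b) • E f p = ∑ e, w.liftKaehlerDifferential (thm G (qh u) e) •
        ∑ a, adm G (qh u) a b • ∑ c, (K.κ * eps e a c) • E c p := by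
      simp only [K.der_adm (qpt u), Finset.sum_smul, mul_smul, Finset.smul_sum]
      rw [Finset.sum_comm]
      refine Finset.sum_congr rfl fun e _ => ?_
      rw [Finset.sum_comm]
      exact Finset.sum_congr rfl fun a _ => Finset.sum_congr rfl fun c _ => congrArg _ (by
        rw [smul_assoc, smul_assoc, smul_comm (adm ..), smul_comm (adm ..)])
    simp only [h3, taN, map_sum, act_smul, map_smul, h1, h2, map_sub, smul_sub, smul_add,
      Finset.sum_add_distrib, Finset.sum_sub_distrib, h4]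
    rw [add_comm, add_sub_add_right_eq_sub]
    simp only [Finset.smul_sum]
    rw [Finset.sum_comm]
    simp only [smul_comm (adm G (qh u) _ b)]

/-- The formula for the transition maps follows from its case at the unit. -/
theorem t_act_of (u : Ar G s X Y) (w : Derivation ℂ (RQ G s Y) (RQ G s Y)) (n : ℕ)
    (c : Fin n → RQ G s Y) (v : Fin n → Derivation ℂ (RQ G s X) (RQ G s X))
    (h : ∀ a, w (qf u a) = ∑ k, c k * qf u (v k a)) (lam : RQ G s Y)
    (h1 : act xd G s Y w (t xd K u 1) = ∑ k, c k • t xd K u (act xd G s X (v k) 1) -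
      lam • t xd K u 1 +
      ∑ a, w.liftKaehlerDifferential (thm G (qh u) a) • ll xd K s Y a (t xd K u 1))
    (x : TX G s X) : act xd G s Y w (t xd K u x) = ∑ k, c k • t xd K u (act xd G s X (v k) x) -
      lam • t xd K u x +
      ∑ a, w.liftKaehlerDifferential (thm G (qh u) a) • ll xd K s Y a (t xd K u x) := by
  rw [← sub_eq_iff_eq_add] at h1 ⊢
  change taN xd K u w _ = _ at h1 ⊢
  induction x using mon_ind with
  | h0 α =>
    induction α using fs_ind with
    | h0 => exact h1
    | h1 α k ih =>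
      have e : (monomial (α + Finsupp.single k 1) 1 : TX G s X) =
          ra0 xd G s X (DO.D _ k) (monomial α 1) := by
        rw [ra0, ra_D, MvPolynomial.X, monomial_mul, mul_one]
      simp only [e, act_ra0, t_ra0, taN_gu, ih, map_sub, map_sum, map_smul]
  | h1 a p hp =>
    have e : taN xd K u w (qf u a • t xd K u p) =
        w (qf u a) • t xd K u p + qf u a • taN xd K u w (t xd K u p) := by
      simp only [taN, act_smul, map_smul, smul_sub, Finset.smul_sum, smul_comm (qf u a),
        add_sub_assoc]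
    simp only [t_smul, e, hp, h, act_smul, map_add, smul_add, Finset.sum_add_distrib, smul_sub,
      Finset.smul_sum, Finset.sum_smul, mul_smul, smul_comm (qf u a), add_sub_assoc]
  | h2 p q hp hq =>
    have e : taN xd K u w (t xd K u p + t xd K u q) =
        taN xd K u w (t xd K u p) + taN xd K u w (t xd K u q) := by
      simp only [taN, map_add, smul_add, Finset.sum_add_distrib]
      abel
    simp only [map_add, e, hp, hq, smul_add, Finset.sum_add_distrib]
    abel

end

end Vale.Agent.P286EX.Tr
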