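import Vale.Agent.P286E50F.Ord
import Vale.Agent.P286ER2.G0

/-!
# The order lemmas for transfer modules
-/

namespace Vale.Agent.P286E50F

open Finsupp MvPolynomial Vale.Agent.P286EI Vale.Agent.P286EX

noncomputable section

variable {A T P O ι : Type} [CommRing A] [AddCommGroup T] [Module A T] [AddCommGroup P]
  [Module A P] [Fintype ι] [DecidableEq ι]

namespace OD

variable (E : OD A T O ι) (J : T →ₗ[A] P) (ρ : P →ₗ[A] P) {g : O}

omit [DecidableEq ι] in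
theorem map_Fl {r n : ℕ} {S : Set P} (h : ∀ m : ι →₀ ℕ, ∑ l, m l + r ≤ n → J (E.bs m) ∈ S)
    {p : T} (hp : p ∈ E.Fl r n) : J p ∈ Submodule.span A S :=
  (Submodule.span_le (p := (Submodule.span A S).comap J)).2 (by
    rintro _ ⟨m, hm, rfl⟩
    exact Submodule.subset_span (h m hm)) hp

/-- The shape of the field `F_e`. -/
theorem lift_lead (hρ : ∀ p, ρ (J p) = J (E.rf g p)) (e : (ι →₀ ℕ) → P)
    (he : ∀ m, e m = J (E.bs m)) (h : E.ev g = 0) (c : ι → A) (hc : ∀ j, E.ev (E.δ j g) = c j)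
    (m : ι →₀ ℕ) : ρ (e m) - ∑ l, ((m l : A) * c l) • e (m - single l 1) ∈
      Submodule.span A {p | ∃ m' : ι →₀ ℕ, ∑ l, m' l + 2 ≤ ∑ l, m l ∧ p = e m'} := by
  have h1 := E.map_Fl J (S := {p | ∃ m' : ι →₀ ℕ, ∑ l, m' l + 2 ≤ ∑ l, m l ∧ p = e m'})
    (fun m' hm => ⟨m', hm, (he m').symm⟩) (E.lead0 m h)
  simp only [map_sub, map_sum, map_smul, hc, ← hρ, ← he] at h1
  exact h1

/-- The shape of the field `cf_ord`. -/
theorem lift_ord {β : Type} (hρ : ∀ p, ρ (J p) = J (E.rf g p)) (e : (ι →₀ ℕ) → β → P) (k : β)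
    (he : ∀ m, e m k = J (E.bs m)) (m : ι →₀ ℕ) : ρ (e m k) ∈ Submodule.span A
      {p | ∃ (m' : ι →₀ ℕ) (k' : β), ∑ l, m' l ≤ ∑ l, m l ∧ p = e m' k'} := by
  have h1 := E.map_Fl J
    (S := {p | ∃ (m' : ι →₀ ℕ) (k' : β), ∑ l, m' l ≤ ∑ l, m l ∧ p = e m' k'})
    (fun m' hm => ⟨m', k, hm, (he m').symm⟩) (E.ord g m)
  rwa [← hρ, ← he] at h1

end OD

variable {κ R : Type} [CommRing R] [Algebra ℂ R] [Algebra ℂ A] {δ : κ → Derivation ℂ R R}

/-- The data defined by a right action of the differential operators. -/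
def ofRa (ra : DO δ → T →ₗ[A] T) (add : ∀ a b, ra (a + b) = ra a + ra b)
    (mul : ∀ a b p, ra (a * b) p = ra b (ra a p)) (ψ : R → A)
    (σ : ι → κ) (bs : (ι →₀ ℕ) → T) (h0 : ∀ g, ra (DO.of δ g) (bs 0) = ψ g • bs 0)
    (h1 : ∀ m l, bs (m + single l 1) = ra (DO.D δ (σ l)) (bs m)) : OD A T R ι where
  bs := bs
  rD l := ra (DO.D δ (σ l))
  rf g := ra (DO.of δ g)
  δ l := δ (σ l)
  ev := ψ
  bs_succ := h1
  rf_zero := h0
  rf_rD g l p := by rw [← mul, DO.D_of, add, LinearMap.add_apply, mul]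

/-- The data of the transfer module. -/
def ofTr (h : DO.Cm δ) (ψ : R →ₐ[ℂ] A) (σ : ι → κ) (bs : (ι →₀ ℕ) → MvPolynomial κ A)
    (h0 : bs 0 = 1) (h1 : ∀ m l, bs (m + single l 1) = bs m * X (σ l)) :
    OD A (MvPolynomial κ A) R ι :=
  ofRa (Tr.ra h ψ) (map_add _) (Tr.ra_mul h ψ) ψ σ bs
    (fun g => by rw [h0, Tr.ra_one', Tr.ev_of, smul_eq_C_mul, mul_one])
    fun m l => by rw [Tr.ra_D, h1]

end

end Vale.Agent.P286E50F
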